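import Vale.Agent.P042.H416.Level
import Mathlib.Logic.Function.DependsOn

/-!
# P042, block [B] (helper540 #7109, helper742 #7400), Step 1 for Bernoulli sets of coordinates

`t i` individual rates, `bw t R` the Bernoulli weight of the set `R`.
-/

set_option autoImplicit false

namespace Vale.Agent.P042.H416

open Finset Vale.Agent.P042.H461

variable {ι : Type*} [Fintype ι] [DecidableEq ι] {V : ι → Type*} [∀ i, Fintype (V i)]
  [∀ i, DecidableEq (V i)]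

/-- restriction to the coordinates in `R` -/
def rst (R : Finset ι) (x : ∀ i, V i) (i : {i // i ∈ R}) : V i := x i

/-- `A` of Step 1: `∑_J ∏_{i ∈ J} (1/t_i-1) (∑_{D ⊇ J} T_D)^2` -/
noncomputable def AJ (t : ι → ℝ) (T : Finset ι → (∀ i, V i) → ℝ) (x : ∀ i, V i) : ℝ :=
  ∑ J : Finset ι, (∏ i ∈ J, (1 / t i - 1)) * (∑ D with J ⊆ D, T D x) ^ 2

/-- the part `J ≠ ∅` -/
noncomputable def AJ' (t : ι → ℝ) (T : Finset ι → (∀ i, V i) → ℝ) (x : ∀ i, V i) : ℝ :=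
  ∑ J : Finset ι with J.Nonempty, (∏ i ∈ J, (1 / t i - 1)) * (∑ D with J ⊆ D, T D x) ^ 2

omit [∀ i, Fintype (V i)] [∀ i, DecidableEq (V i)] in
theorem AJ_eq (t : ι → ℝ) (T : Finset ι → (∀ i, V i) → ℝ) (x : ∀ i, V i) :
    AJ t T x = (∑ D, T D x) ^ 2 + AJ' t T x := by
  unfold AJ AJ'
  rw [← Finset.sum_filter_add_sum_filter_not univ (fun J : Finset ι => J.Nonempty), add_comm]
  congr 1
  have h : (univ.filter fun J : Finset ι => ¬ J.Nonempty) = {∅} := by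
    ext J
    simp [Finset.not_nonempty_iff_eq_empty]
  rw [h, Finset.sum_singleton]
  simp

omit [Fintype ι] [DecidableEq ι] in
theorem rate_nonneg {t : ι → ℝ} (ht0 : ∀ i, 0 < t i) (ht1 : ∀ i, t i ≤ 1) (J : Finset ι) :
    0 ≤ ∏ i ∈ J, (1 / t i - 1) := by
  refine Finset.prod_nonneg fun i _ => ?_
  rw [sub_nonneg, le_div_iff₀ (ht0 i)]
  linarith [ht1 i]

omit [∀ i, Fintype (V i)] [∀ i, DecidableEq (V i)] in
theorem AJ'_nonneg {t : ι → ℝ} (ht0 : ∀ i, 0 < t i) (ht1 : ∀ i, t i ≤ 1)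
    (T : Finset ι → (∀ i, V i) → ℝ) (x : ∀ i, V i) : 0 ≤ AJ' t T x :=
  Finset.sum_nonneg fun J _ => mul_nonneg (rate_nonneg ht0 ht1 J) (sq_nonneg _)

/-- the multi-coordinate entropy inequality at the rates `t`, for `mu` conditioned on events of
mass at least `δ`, with an additive error -/
def MEIr (t : ι → ℝ) (ε κ δ : ℝ) (mu : (∀ i, V i) → ℝ) : Prop :=
  ∀ E : Finset (∀ i, V i), 0 < ∑ x ∈ E, mu x → δ ≤ ∑ x ∈ E, mu x →
    ∑ R : Finset ι, bw t R * KL (push (rst R) (res E mu)) (push (rst R) mu) ≤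
      ε * (κ - Real.log (∑ x ∈ E, mu x))

/-- the multi-coordinate entropy inequality for all laws -/
def MEI (t : ι → ℝ) (ε : ℝ) (mu : (∀ i, V i) → ℝ) : Prop :=
  ∀ nu : (∀ i, V i) → ℝ, IsLaw nu → AC nu mu →
    ∑ R : Finset ι, bw t R * KL (push (rst R) nu) (push (rst R) mu) ≤ ε * KL nu mu

theorem MEI.meir {t : ι → ℝ} {ε : ℝ} {mu : (∀ i, V i) → ℝ} (hmu : ∀ x, 0 ≤ mu x)
    (h : MEI t ε mu) (δ : ℝ) : MEIr t ε 0 δ mu := by
  intro E hE _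
  have h1 := h _ (isLaw_res hmu hE) (AC_res E mu)
  rw [KL_res hmu hE] at h1
  simpa using h1

/-- Step 1 for the family `T` with `T_D` a function of `x_D` -/
theorem level_bern {t : ι → ℝ} {ε κ δ : ℝ} (ht0 : ∀ i, 0 < t i) (ht1 : ∀ i, t i ≤ 1)
    (hε : 0 ≤ ε) (hκ : 0 ≤ κ) {mu : (∀ i, V i) → ℝ} (hmu : IsLaw mu) (hmei : MEIr t ε κ δ mu)
    (T : Finset ι → (∀ i, V i) → ℝ) (hdep : ∀ D, DependsOn (T D) (D : Set ι))
    (hcen : ∑ x, mu x * ∑ D, T D x = 0)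
    {B : ℝ} (hB : ∀ x, mu x ≠ 0 → |∑ D, T D x| ≤ B)
    (E0 : Finset (∀ i, V i)) (hE0 : 0 < ∑ x ∈ E0, mu x) {Λ : ℝ} (hΛ : 0 ≤ Λ)
    (hδ : δ ≤ Real.exp (-Λ) * ∑ x ∈ E0, mu x) :
    ∑ x ∈ E0, mu x * (∑ D, T D x) ^ 2 ≤ (∑ x ∈ E0, mu x) * (3 * Real.exp (-Λ) * B ^ 2) +
      8 * ε * (Λ + κ - Real.log (∑ x ∈ E0, mu x)) *
        (∑ x ∈ E0, mu x * AJ t T x + (∑ x ∈ E0, mu x) * ∑ x, mu x * AJ t T x) := by
  classical
  -- a base point
  obtain ⟨x0⟩ : Nonempty (∀ i, V i) := by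
    by_contra hc
    rw [not_nonempty_iff] at hc
    have := hmu.2
    simp at this
  have ht : ∀ i, t i ≠ 0 := fun i => (ht0 i).ne'
  have htD : ∀ D : Finset ι, ∏ i ∈ D, t i ≠ 0 := fun D => Finset.prod_ne_zero_iff.2 fun i _ => ht i
  have hw0 : ∀ R, 0 ≤ bw t R := bw_nonneg (fun i => (ht0 i).le) ht1
  set F : ∀ R : Finset ι, (∀ i : {i // i ∈ R}, V i) → ℝ := fun R y =>
    ∑ D ∈ R.powerset, (∏ i ∈ D, t i)⁻¹ *
      T D (fun i => if h : i ∈ R then y ⟨i, h⟩ else x0 i) with hF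
  have hFx : ∀ (R : Finset ι) (x : ∀ i, V i),
      F R (rst R x) = ∑ D ∈ R.powerset, (∏ i ∈ D, t i)⁻¹ * T D x := by
    intro R x
    rw [hF]
    beta_reduce
    refine Finset.sum_congr rfl fun D hD => congrArg (fun z => (∏ i ∈ D, t i)⁻¹ * z) ?_
    refine hdep D fun i hi => ?_
    have hiR : i ∈ R := (Finset.mem_powerset.1 hD) hi
    simp only [hiR, dif_pos, rst]
  have hΨ : ∀ x, ∑ D, T D x = ∑ R, bw t R * F R (rst R x) := by
    intro x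
    have h1 : ∀ R : Finset ι, bw t R * F R (rst R x) =
        ∑ D, (∏ i ∈ D, t i)⁻¹ * T D x * (if D ⊆ R then bw t R else 0) := by
      intro R
      rw [hFx, ← Finset.sum_filter_add_sum_filter_not univ (fun D => D ⊆ R)]
      have h2 : ∑ D with ¬ D ⊆ R, (∏ i ∈ D, t i)⁻¹ * T D x * (if D ⊆ R then bw t R else 0) = 0 :=
        Finset.sum_eq_zero fun D hD => by rw [if_neg (Finset.mem_filter.1 hD).2, mul_zero]
      have h3 : (univ.filter fun D : Finset ι => D ⊆ R) = R.powerset := by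
        ext D
        simp
      rw [h2, add_zero, h3, Finset.mul_sum]
      refine Finset.sum_congr rfl fun D hD => ?_
      rw [if_pos (Finset.mem_powerset.1 hD)]
      ring
    rw [Finset.sum_congr rfl fun R _ => h1 R, Finset.sum_comm]
    refine Finset.sum_congr rfl fun D _ => ?_
    rw [← Finset.mul_sum, ← Finset.sum_filter, sum_bw_superset]
    have := htD D
    field_simp
  have hA : ∀ x, ∑ R, bw t R * F R (rst R x) ^ 2 = AJ t T x := by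
    intro x
    have h1 := sub_gen ht (fun D => (∏ i ∈ D, t i)⁻¹ * T D x)
    have h2 : ∀ R : Finset ι, bw t R * F R (rst R x) ^ 2 =
        bw t R * (∑ D ∈ R.powerset, (∏ i ∈ D, t i)⁻¹ * T D x) ^ 2 := by
      intro R
      rw [hFx]
    rw [Finset.sum_congr rfl fun R _ => h2 R, h1]
    unfold AJ
    refine Finset.sum_congr rfl fun J _ => ?_
    congr 2
    refine Finset.sum_congr rfl fun D _ => ?_
    rw [← mul_assoc, mul_inv_cancel₀ (htD D), one_mul]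
  have hc : ∑ R, bw t R * ∑ x, mu x * F R (rst R x) = 0 := by
    rw [← hcen]
    have h1 : ∀ R, bw t R * ∑ x, mu x * F R (rst R x) =
        ∑ x, mu x * (bw t R * F R (rst R x)) := by
      intro R
      rw [Finset.mul_sum]
      exact Finset.sum_congr rfl fun x _ => by ring
    rw [Finset.sum_congr rfl fun R _ => h1 R, Finset.sum_comm]
    exact Finset.sum_congr rfl fun x _ => by rw [← Finset.mul_sum, ← hΨ]
  have h := level_mei (X := ∀ i, V i) hw0 (fun R => rst R) F hmu hε hκ hc hΨ hB E0 hE0 hΛ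
    (fun E _ hE => hmei E (lt_of_lt_of_le (mul_pos (Real.exp_pos _) hE0) hE) (hδ.trans hE))
  simp only [hA] at h
  exact h

/-- Step 1 with the term `J = ∅` absorbed, no pins -/
theorem level_zero {t : ι → ℝ} {ε κ δ : ℝ} (ht0 : ∀ i, 0 < t i) (ht1 : ∀ i, t i ≤ 1)
    (hε : 0 ≤ ε) (hκ : 0 ≤ κ) {mu : (∀ i, V i) → ℝ} (hmu : IsLaw mu) (hmei : MEIr t ε κ δ mu)
    (T : Finset ι → (∀ i, V i) → ℝ) (hdep : ∀ D, DependsOn (T D) (D : Set ι))
    (hcen : ∑ x, mu x * ∑ D, T D x = 0)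
    {B : ℝ} (hB : ∀ x, mu x ≠ 0 → |∑ D, T D x| ≤ B) {Λ : ℝ} (hΛ : 0 ≤ Λ) (hδ : δ ≤ Real.exp (-Λ))
    (hs : 16 * ε * (Λ + κ) ≤ 1 / 2) :
    ∑ x, mu x * (∑ D, T D x) ^ 2 ≤ 6 * Real.exp (-Λ) * B ^ 2 +
      32 * ε * (Λ + κ) * ∑ x, mu x * AJ' t T x := by
  have h := level_bern ht0 ht1 hε hκ hmu hmei T hdep hcen hB univ
    (by rw [hmu.2]; exact one_pos) hΛ (by rw [hmu.2, mul_one]; exact hδ)
  rw [hmu.2, Real.log_one, sub_zero, one_mul, one_mul] at h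
  have h1 : ∑ x, mu x * AJ t T x =
      ∑ x, mu x * (∑ D, T D x) ^ 2 + ∑ x, mu x * AJ' t T x := by
    rw [← Finset.sum_add_distrib]
    exact Finset.sum_congr rfl fun x _ => by rw [AJ_eq]; ring
  rw [h1] at h
  have h2 : 0 ≤ ∑ x, mu x * (∑ D, T D x) ^ 2 :=
    Finset.sum_nonneg fun x _ => mul_nonneg (hmu.1 x) (sq_nonneg _)
  have h3 : (16 * ε * (Λ + κ)) * ∑ x, mu x * (∑ D, T D x) ^ 2 ≤
      (1 / 2) * ∑ x, mu x * (∑ D, T D x) ^ 2 :=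
    mul_le_mul_of_nonneg_right hs h2
  linarith

/-- Step 1 with the term `J = ∅` absorbed, with pins: `E0` the event `x_W = w`, `K ≥ log 1/mu(E0)` -/
theorem level_pin {t : ι → ℝ} {ε κ δ : ℝ} (ht0 : ∀ i, 0 < t i) (ht1 : ∀ i, t i ≤ 1)
    (hε : 0 ≤ ε) (hκ : 0 ≤ κ) {mu : (∀ i, V i) → ℝ} (hmu : IsLaw mu) (hmei : MEIr t ε κ δ mu)
    (T : Finset ι → (∀ i, V i) → ℝ) (hdep : ∀ D, DependsOn (T D) (D : Set ι))
    (hcen : ∑ x, mu x * ∑ D, T D x = 0)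
    {B : ℝ} (hB : ∀ x, mu x ≠ 0 → |∑ D, T D x| ≤ B)
    (E0 : Finset (∀ i, V i)) (hE0 : 0 < ∑ x ∈ E0, mu x) {Λ K : ℝ} (hΛ : 0 ≤ Λ)
    (hK : -Real.log (∑ x ∈ E0, mu x) ≤ K) (hδ : δ ≤ Real.exp (-Λ) * ∑ x ∈ E0, mu x)
    (hs : 32 * ε * (Λ + κ + K) ≤ 1) :
    ∑ x ∈ E0, mu x * (∑ D, T D x) ^ 2 ≤
      (∑ x ∈ E0, mu x) * (6 * Real.exp (-Λ) * B ^ 2) +
      22 * ε * (Λ + κ + K) * (∑ x ∈ E0, mu x * AJ' t T x +
        (∑ x ∈ E0, mu x) * ∑ x, mu x * AJ' t T x) := by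
  have hm1 : ∑ x ∈ E0, mu x ≤ 1 := by
    rw [← hmu.2]
    exact Finset.sum_le_univ_sum_of_nonneg hmu.1
  set m0 := ∑ x ∈ E0, mu x with hm0
  have hlog : Real.log m0 ≤ 0 := Real.log_nonpos hE0.le hm1
  have hK0 : 0 ≤ K := by linarith
  have hδ' : δ ≤ Real.exp (-Λ) := by
    refine hδ.trans ?_
    have := mul_le_mul_of_nonneg_left hm1 (Real.exp_pos (-Λ)).le
    linarith
  have hz := level_zero ht0 ht1 hε hκ hmu hmei T hdep hcen hB hΛ hδ'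
    (by nlinarith [mul_nonneg hε hK0])
  have h := level_bern ht0 ht1 hε hκ hmu hmei T hdep hcen hB E0 hE0 hΛ hδ
  rw [← hm0] at h
  have h1 : ∑ x, mu x * AJ t T x =
      ∑ x, mu x * (∑ D, T D x) ^ 2 + ∑ x, mu x * AJ' t T x := by
    rw [← Finset.sum_add_distrib]
    exact Finset.sum_congr rfl fun x _ => by rw [AJ_eq]; ring
  have h2 : ∑ x ∈ E0, mu x * AJ t T x =
      ∑ x ∈ E0, mu x * (∑ D, T D x) ^ 2 + ∑ x ∈ E0, mu x * AJ' t T x := by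
    rw [← Finset.sum_add_distrib]
    exact Finset.sum_congr rfl fun x _ => by rw [AJ_eq]; ring
  rw [h1, h2] at h
  set P := ∑ x ∈ E0, mu x * (∑ D, T D x) ^ 2 with hP
  set Q := ∑ x, mu x * (∑ D, T D x) ^ 2 with hQ
  set P' := ∑ x ∈ E0, mu x * AJ' t T x with hP'
  set Q' := ∑ x, mu x * AJ' t T x with hQ'
  have hP0 : 0 ≤ P := Finset.sum_nonneg fun x _ => mul_nonneg (hmu.1 x) (sq_nonneg _)
  have hQ0 : 0 ≤ Q := Finset.sum_nonneg fun x _ => mul_nonneg (hmu.1 x) (sq_nonneg _)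
  have hP'0 : 0 ≤ P' := Finset.sum_nonneg fun x _ =>
    mul_nonneg (hmu.1 x) (AJ'_nonneg ht0 ht1 T x)
  have hQ'0 : 0 ≤ Q' := Finset.sum_nonneg fun x _ =>
    mul_nonneg (hmu.1 x) (AJ'_nonneg ht0 ht1 T x)
  have hmP : 0 ≤ m0 * Q' := mul_nonneg hE0.le hQ'0
  have hmQ : 0 ≤ m0 * Q := mul_nonneg hE0.le hQ0
  set c := 8 * ε * (Λ + κ + K) with hcdef
  have hc0 : 0 ≤ c := by positivity
  have hc4 : c ≤ 1 / 4 := by rw [hcdef]; linarith
  have h3 : 8 * ε * (Λ + κ - Real.log m0) ≤ c := by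
    rw [hcdef]
    exact mul_le_mul_of_nonneg_left (by linarith) (by positivity)
  have h4 : P ≤ m0 * (3 * Real.exp (-Λ) * B ^ 2) + c * (P + P' + m0 * (Q + Q')) := by
    refine h.trans (add_le_add le_rfl (mul_le_mul_of_nonneg_right h3 ?_))
    have : 0 ≤ m0 * (Q + Q') := mul_nonneg hE0.le (by linarith)
    linarith
  have h5 : c * P ≤ 1 / 4 * P := mul_le_mul_of_nonneg_right hc4 hP0
  have h6 : c * (m0 * Q) ≤ 1 / 4 * (m0 * Q) := mul_le_mul_of_nonneg_right hc4 hmQ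
  have h7 : m0 * Q ≤ m0 * (6 * Real.exp (-Λ) * B ^ 2 + 32 * ε * (Λ + κ) * Q') :=
    mul_le_mul_of_nonneg_left hz hE0.le
  have h8 : 32 * ε * (Λ + κ) * Q' ≤ 4 * c * Q' := by
    refine mul_le_mul_of_nonneg_right ?_ hQ'0
    rw [hcdef]
    nlinarith [mul_nonneg hε hK0]
  have h9 : m0 * (32 * ε * (Λ + κ) * Q') ≤ m0 * (4 * c * Q') :=
    mul_le_mul_of_nonneg_left h8 hE0.le
  have he : 0 ≤ m0 * (Real.exp (-Λ) * B ^ 2) :=
    mul_nonneg hE0.le (mul_nonneg (Real.exp_pos _).le (sq_nonneg _))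
  have h10 : 0 ≤ c * P' := mul_nonneg hc0 hP'0
  have h11 : 0 ≤ c * (m0 * Q') := mul_nonneg hc0 hmP
  have goal : P ≤ 6 * (m0 * (Real.exp (-Λ) * B ^ 2)) + 22 / 8 * (c * P' + c * (m0 * Q')) := by
    nlinarith
  refine goal.trans (le_of_eq ?_)
  rw [hcdef]
  ring

end Vale.Agent.P042.H416
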