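import Vale.Agent.P042.H416.LevelB
import Vale.Agent.P042.H779.Basic

/-!
# P042, block [B]: the level step in the notation of H779.Basic (the `hLev` of helper678)
-/

set_option autoImplicit false

namespace Vale.Agent.P042.H416

open Finset Vale.Agent.P042.H461
open Vale.Agent.P042.H779 (IsProb marg m1 pw gd m1_nonneg m1_sum)

variable {ι : Type*} [Fintype ι] [DecidableEq ι] {V : ι → Type*} [∀ i, Fintype (V i)]
  [∀ i, DecidableEq (V i)]

omit [∀ i, DecidableEq (V i)] in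
theorem isLaw_of_isProb {μ : (∀ i, V i) → ℝ} (h : IsProb μ) : IsLaw μ := ⟨h.nonneg, h.sum_eq⟩

/-- the pinned mean of `f`: `x_W = w` -/
noncomputable def Ew (μ : (∀ i, V i) → ℝ) (W : Finset ι) (w : ∀ i, V i)
    (f : (∀ i, V i) → ℝ) : ℝ :=
  (∑ y, if ∀ i ∈ W, y i = w i then μ y * f y else 0) / marg μ W w

/-- **hLev**: the level step with pins.  `T D` a function of `x_D`, `E_mu ∑ T = 0`. -/
theorem hLev {t : ι → ℝ} {ε κ δ : ℝ} (ht0 : ∀ i, 0 < t i) (ht1 : ∀ i, t i ≤ 1)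
    (hε : 0 ≤ ε) (hκ : 0 ≤ κ) {μ : (∀ i, V i) → ℝ} (hμ : IsProb μ) (hmei : MEIr t ε κ δ μ)
    (T : Finset ι → (∀ i, V i) → ℝ) (hdep : ∀ D, DependsOn (T D) (D : Set ι))
    (hcen : ∑ x, μ x * ∑ D, T D x = 0)
    {B : ℝ} (hB : ∀ x, μ x ≠ 0 → |∑ D, T D x| ≤ B)
    (W : Finset ι) (w : ∀ i, V i) (hw : 0 < marg μ W w) {Λ K : ℝ} (hΛ : 0 ≤ Λ)
    (hK : -Real.log (marg μ W w) ≤ K) (hδ : δ ≤ Real.exp (-Λ) * marg μ W w)
    (hs : 32 * ε * (Λ + κ + K) ≤ 1) :
    Ew μ W w (fun x => (∑ D, T D x) ^ 2) ≤ 6 * Real.exp (-Λ) * B ^ 2 +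
      22 * ε * (Λ + κ + K) * ∑ J : Finset ι with J.Nonempty, (∏ i ∈ J, t i)⁻¹ *
        (Ew μ W w (fun x => (∑ D with J ⊆ D, T D x) ^ 2) +
          ∑ x, μ x * (∑ D with J ⊆ D, T D x) ^ 2) := by
  classical
  set E0 : Finset (∀ i, V i) := univ.filter fun y => ∀ i ∈ W, y i = w i with hE0
  have hsum : ∀ f : (∀ i, V i) → ℝ, ∑ x ∈ E0, μ x * f x =
      ∑ y, if ∀ i ∈ W, y i = w i then μ y * f y else 0 := by
    intro f
    rw [hE0, Finset.sum_filter]
  have hm : ∑ x ∈ E0, μ x = marg μ W w := by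
    rw [hE0, Finset.sum_filter]
    rfl
  have h := level_pin ht0 ht1 hε hκ (isLaw_of_isProb hμ) hmei T hdep hcen hB E0
    (by rw [hm]; exact hw) hΛ (by rw [hm]; exact hK) (by rw [hm]; exact hδ) hs
  rw [hm] at h
  have hEw : ∀ f : (∀ i, V i) → ℝ, Ew μ W w f = (∑ x ∈ E0, μ x * f x) / marg μ W w := by
    intro f
    rw [hsum]
    rfl
  have hK0 : 0 ≤ K := by
    have h1 : marg μ W w ≤ 1 := by
      rw [← hm, ← hμ.sum_eq]
      exact Finset.sum_le_univ_sum_of_nonneg hμ.nonneg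
    linarith [Real.log_nonpos hw.le h1]
  have hc0 : 0 ≤ 22 * ε * (Λ + κ + K) := by positivity
  -- bound of AJ'
  have hrate : ∀ J : Finset ι, ∏ i ∈ J, (1 / t i - 1) ≤ (∏ i ∈ J, t i)⁻¹ := by
    intro J
    rw [← Finset.prod_inv_distrib]
    refine Finset.prod_le_prod (fun i _ => ?_) fun i _ => ?_
    · rw [sub_nonneg, le_div_iff₀ (ht0 i)]
      linarith [ht1 i]
    · rw [one_div]
      linarith
  have hA : ∀ v : (∀ i, V i) → ℝ, (∀ x, 0 ≤ v x) → ∀ E : Finset (∀ i, V i),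
      ∑ x ∈ E, v x * AJ' t T x ≤ ∑ J : Finset ι with J.Nonempty, (∏ i ∈ J, t i)⁻¹ *
        ∑ x ∈ E, v x * (∑ D with J ⊆ D, T D x) ^ 2 := by
    intro v hv E
    have h1 : ∀ x, v x * AJ' t T x ≤ ∑ J : Finset ι with J.Nonempty, (∏ i ∈ J, t i)⁻¹ *
        (v x * (∑ D with J ⊆ D, T D x) ^ 2) := by
      intro x
      unfold AJ'
      rw [Finset.mul_sum]
      refine Finset.sum_le_sum fun J _ => ?_
      have h2 := mul_le_mul_of_nonneg_right (hrate J)
        (mul_nonneg (hv x) (sq_nonneg (∑ D with J ⊆ D, T D x)))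
      calc _ = (∏ i ∈ J, (1 / t i - 1)) * (v x * (∑ D with J ⊆ D, T D x) ^ 2) := by ring
        _ ≤ _ := h2
    refine (Finset.sum_le_sum fun x _ => h1 x).trans (le_of_eq ?_)
    rw [Finset.sum_comm]
    exact Finset.sum_congr rfl fun J _ => by rw [Finset.mul_sum]
  have hA1 := hA μ hμ.nonneg E0
  have hA2 := hA μ hμ.nonneg univ
  rw [hEw, div_le_iff₀ hw]
  refine h.trans ?_
  have h3 : 22 * ε * (Λ + κ + K) * (∑ x ∈ E0, μ x * AJ' t T x +
      marg μ W w * ∑ x, μ x * AJ' t T x) ≤ 22 * ε * (Λ + κ + K) *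
      (∑ J : Finset ι with J.Nonempty, (∏ i ∈ J, t i)⁻¹ *
        ∑ x ∈ E0, μ x * (∑ D with J ⊆ D, T D x) ^ 2 +
        marg μ W w * ∑ J : Finset ι with J.Nonempty, (∏ i ∈ J, t i)⁻¹ *
          ∑ x, μ x * (∑ D with J ⊆ D, T D x) ^ 2) := by
    refine mul_le_mul_of_nonneg_left (add_le_add hA1 ?_) hc0
    exact mul_le_mul_of_nonneg_left hA2 hw.le
  have h4 : ∀ J : Finset ι, (∏ i ∈ J, t i)⁻¹ *
        (Ew μ W w (fun x => (∑ D with J ⊆ D, T D x) ^ 2) +
          ∑ x, μ x * (∑ D with J ⊆ D, T D x) ^ 2) =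
      ((∏ i ∈ J, t i)⁻¹ * ∑ x ∈ E0, μ x * (∑ D with J ⊆ D, T D x) ^ 2) / marg μ W w +
        (∏ i ∈ J, t i)⁻¹ * ∑ x, μ x * (∑ D with J ⊆ D, T D x) ^ 2 := by
    intro J
    rw [hEw]
    ring
  rw [Finset.sum_congr rfl fun J _ => h4 J, Finset.sum_add_distrib, ← Finset.sum_div]
  have h5 : ∀ a b c : ℝ, (6 * Real.exp (-Λ) * B ^ 2 + c * (a / marg μ W w + b)) * marg μ W w =
      marg μ W w * (6 * Real.exp (-Λ) * B ^ 2) + c * (a + marg μ W w * b) := by
    intro a b c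
    field_simp
  rw [h5]
  linarith

/-! ### sup bound of local functions by the product norm -/

/-- mass of a cylinder under the product of the marginals -/
theorem sum_pw_cyl {μ : (∀ i, V i) → ℝ} (hμ : IsProb μ) (D : Finset ι) (x : ∀ i, V i) :
    ∑ y, (if ∀ i ∈ D, y i = x i then pw μ y else 0) = ∏ i ∈ D, m1 μ i (x i) := by
  classical
  have h1 : ∀ y : ∀ i, V i, (if ∀ i ∈ D, y i = x i then pw μ y else 0) =
      ∏ i, (if i ∈ D then (if y i = x i then m1 μ i (y i) else 0) else m1 μ i (y i)) := by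
    intro y
    split_ifs with h
    · unfold pw
      refine Finset.prod_congr rfl fun i _ => ?_
      by_cases hi : i ∈ D
      · rw [if_pos hi, if_pos (h i hi)]
      · rw [if_neg hi]
    · obtain ⟨i, hi⟩ := not_forall.1 h
      obtain ⟨hiD, hne⟩ := Classical.not_imp.1 hi
      symm
      exact Finset.prod_eq_zero (Finset.mem_univ i) (by rw [if_pos hiD, if_neg hne])
  rw [Finset.sum_congr rfl fun y _ => h1 y]
  have h2 := Finset.prod_univ_sum (fun i : ι => (univ : Finset (V i)))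
    (fun i a => if i ∈ D then (if a = x i then m1 μ i a else 0) else m1 μ i a)
  rw [Fintype.piFinset_univ] at h2
  rw [← h2, ← Finset.prod_subset (Finset.subset_univ D)]
  · refine Finset.prod_congr rfl fun i hi => ?_
    simp [hi]
  · intro i _ hi
    simp [hi, m1_sum hμ i]

/-- a local function is bounded by its norm -/
theorem local_sup {μ : (∀ i, V i) → ℝ} (hμ : IsProb μ) {L : ℝ} {D : Finset ι}
    {f : (∀ i, V i) → ℝ} (hf : DependsOn f (D : Set ι)) {x : ∀ i, V i}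
    (hx : ∀ i ∈ D, Real.exp (-L) ≤ m1 μ i (x i)) :
    f x ^ 2 ≤ Real.exp (L * D.card) * ∑ y, pw μ y * f y ^ 2 := by
  classical
  have h1 : (∏ i ∈ D, m1 μ i (x i)) * f x ^ 2 ≤ ∑ y, pw μ y * f y ^ 2 := by
    rw [← sum_pw_cyl hμ D x, Finset.sum_mul]
    refine Finset.sum_le_sum fun y _ => ?_
    have hp : 0 ≤ pw μ y := Finset.prod_nonneg fun i _ => m1_nonneg hμ i _
    split_ifs with h
    · rw [hf (x := y) (y := x) fun i hi => h i hi]
    · rw [zero_mul]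
      positivity
  have h2 : Real.exp (-(L * D.card)) ≤ ∏ i ∈ D, m1 μ i (x i) := by
    have h3 : Real.exp (-(L * D.card)) = ∏ _i ∈ D, Real.exp (-L) := by
      rw [Finset.prod_const, ← Real.exp_nat_mul]
      congr 1
      ring
    rw [h3]
    exact Finset.prod_le_prod (fun i _ => (Real.exp_pos _).le) hx
  have h4 : Real.exp (-(L * D.card)) * f x ^ 2 ≤ ∑ y, pw μ y * f y ^ 2 :=
    (mul_le_mul_of_nonneg_right h2 (sq_nonneg _)).trans h1
  have h5 := mul_le_mul_of_nonneg_left h4 (Real.exp_pos (L * D.card)).le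
  rw [← mul_assoc, ← Real.exp_add, add_neg_cancel, Real.exp_zero, one_mul] at h5
  exact h5

/-- a one-coordinate marginal is positive at every point of the support -/
theorem m1_pos {μ : (∀ i, V i) → ℝ} (hμ : IsProb μ) {x : ∀ i, V i} (hx : μ x ≠ 0) (i : ι) :
    0 < m1 μ i (x i) := by
  have h1 : μ x ≤ m1 μ i (x i) := by
    unfold m1
    refine le_trans (le_of_eq ?_) (Finset.single_le_sum (f := fun y => if y i = x i then μ y else 0)
      (fun y _ => ?_) (Finset.mem_univ x))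
    · simp
    · split_ifs
      · exact hμ.nonneg y
      · exact le_rfl
  exact lt_of_lt_of_le (lt_of_le_of_ne (hμ.nonneg x) (Ne.symm hx)) h1

/-- sup bound for a family supported on sets of size at most `d` in the finset `𝒟` -/
theorem family_sup {μ : (∀ i, V i) → ℝ} (hμ : IsProb μ) {L : ℝ} (hL : 0 ≤ L)
    (hatom : ∀ i a, m1 μ i a = 0 ∨ Real.exp (-L) ≤ m1 μ i a)
    (T : Finset ι → (∀ i, V i) → ℝ) (hdep : ∀ D, DependsOn (T D) (D : Set ι))
    {d : ℕ} (𝒟 : Finset (Finset ι)) (h𝒟 : ∀ D ∈ 𝒟, D.card ≤ d)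
    (hT : ∀ D ∉ 𝒟, ∀ x, T D x = 0) {x : ∀ i, V i} (hx : μ x ≠ 0) :
    |∑ D, T D x| ≤
      √((𝒟.card : ℝ) * Real.exp (L * d) * ∑ D ∈ 𝒟, ∑ y, pw μ y * T D y ^ 2) := by
  classical
  refine Real.abs_le_sqrt ?_
  have h1 : ∑ D, T D x = ∑ D ∈ 𝒟, T D x :=
    (Finset.sum_subset (Finset.subset_univ 𝒟) fun D _ hD => hT D hD x).symm
  rw [h1]
  have h2 := Finset.sum_mul_sq_le_sq_mul_sq 𝒟 (fun _ => (1 : ℝ)) (fun D => T D x)
  simp only [one_mul, one_pow, Finset.sum_const, nsmul_eq_mul, mul_one] at h2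
  refine h2.trans ?_
  rw [mul_assoc]
  refine mul_le_mul_of_nonneg_left ?_ (Nat.cast_nonneg _)
  rw [Finset.mul_sum]
  refine Finset.sum_le_sum fun D hD => ?_
  have h3 := local_sup hμ (L := L) (hdep D) (x := x) fun i _ =>
    (hatom i (x i)).resolve_left (m1_pos hμ hx i).ne'
  refine h3.trans (mul_le_mul_of_nonneg_right ?_ ?_)
  · refine Real.exp_le_exp.2 (mul_le_mul_of_nonneg_left ?_ hL)
    exact_mod_cast h𝒟 D hD
  · exact Finset.sum_nonneg fun y _ => mul_nonneg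
      (Finset.prod_nonneg fun i _ => m1_nonneg hμ i _) (sq_nonneg _)

end Vale.Agent.P042.H416
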