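import Vale.Agent.P042.H461.KL

/-!
# P042, block [B] (helper540 #7109): the Hellinger inequality (H) and the subsampling identity (S)
-/

set_option autoImplicit false

namespace Vale.Agent.P042.H416

open Finset Vale.Agent.P042.H461

/-! ### (H) -/

section hell

variable {X : Type*} [Fintype X]

theorem sqrt_sub_one_sq_le_Ph {y : ℝ} (hy : 0 ≤ y) : (√y - 1) ^ 2 ≤ Ph y := by
  have hs := Real.sqrt_nonneg y
  have h1 : y = √y ^ 2 := (Real.sq_sqrt hy).symm
  have h2 := Ph_nonneg hs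
  have h3 : Real.log y = 2 * Real.log (√y) := by
    conv_lhs => rw [h1]
    rw [Real.log_pow]
    norm_num
  have h4 : Ph y = √y ^ 2 * (2 * Real.log (√y)) - √y ^ 2 + 1 := by
    unfold Ph
    rw [h3]
    congr 2
    rw [← h1]
  rw [h4]
  unfold Ph at h2
  nlinarith [mul_nonneg hs h2]

/-- the squared Hellinger distance is at most the relative entropy -/
theorem hellinger_le_KL {nu mu : X → ℝ} (hnu : ∀ x, 0 ≤ nu x) (hmu : ∀ x, 0 ≤ mu x)
    (hac : AC nu mu) :
    ∑ x, (√(nu x) - √(mu x)) ^ 2 ≤ KL nu mu + (∑ x, mu x - ∑ x, nu x) := by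
  rw [KL_eq_Ph hac]
  have h : ∀ x, (√(nu x) - √(mu x)) ^ 2 ≤ mu x * Ph (nu x / mu x) := by
    intro x
    by_cases h : mu x = 0
    · rw [hac x h, h]
      simp
    · have hpos : 0 < mu x := lt_of_le_of_ne (hmu x) (Ne.symm h)
      have h1 := mul_le_mul_of_nonneg_left (sqrt_sub_one_sq_le_Ph (div_nonneg (hnu x) (hmu x)))
        (hmu x)
      refine le_trans (le_of_eq ?_) h1
      rw [Real.sqrt_div (hnu x)]
      have h2 : mu x = √(mu x) ^ 2 := (Real.sq_sqrt (hmu x)).symm
      have h3 : √(mu x) ≠ 0 := (Real.sqrt_pos.2 hpos).ne'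
      conv_rhs => rw [h2]
      rw [Real.sqrt_sq (Real.sqrt_nonneg _)]
      field_simp
  have := Finset.sum_le_sum fun x (_ : x ∈ univ) => h x
  linarith

/-- (H) two laws, one test function -/
theorem hell {nu mu : X → ℝ} (hnu : ∀ x, 0 ≤ nu x) (hmu : ∀ x, 0 ≤ mu x)
    (hs : ∑ x, mu x ≤ ∑ x, nu x) (hac : AC nu mu) (F : X → ℝ) :
    (∑ x, nu x * F x - ∑ x, mu x * F x) ^ 2 ≤
      2 * KL nu mu * (∑ x, nu x * F x ^ 2 + ∑ x, mu x * F x ^ 2) := by
  have h1 : ∑ x, nu x * F x - ∑ x, mu x * F x =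
      ∑ x, (√(nu x) - √(mu x)) * ((√(nu x) + √(mu x)) * F x) := by
    rw [← Finset.sum_sub_distrib]
    refine Finset.sum_congr rfl fun x _ => ?_
    have ha := Real.sq_sqrt (hnu x)
    have hb := Real.sq_sqrt (hmu x)
    linear_combination (-F x) * ha + F x * hb
  rw [h1]
  refine (Finset.sum_mul_sq_le_sq_mul_sq univ _ _).trans ?_
  have h2 : ∑ x, ((√(nu x) + √(mu x)) * F x) ^ 2 ≤
      2 * (∑ x, nu x * F x ^ 2 + ∑ x, mu x * F x ^ 2) := by
    rw [← Finset.sum_add_distrib, Finset.mul_sum]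
    refine Finset.sum_le_sum fun x _ => ?_
    have ha := Real.sq_sqrt (hnu x)
    have hb := Real.sq_sqrt (hmu x)
    have h5 : (√(nu x) + √(mu x)) ^ 2 ≤ 2 * (nu x + mu x) := by
      nlinarith [sq_nonneg (√(nu x) - √(mu x))]
    calc ((√(nu x) + √(mu x)) * F x) ^ 2 = (√(nu x) + √(mu x)) ^ 2 * F x ^ 2 := by ring
      _ ≤ 2 * (nu x + mu x) * F x ^ 2 := mul_le_mul_of_nonneg_right h5 (sq_nonneg _)
      _ = _ := by ring
  have h3 := hellinger_le_KL hnu hmu hac
  have h4 : 0 ≤ ∑ x, (√(nu x) - √(mu x)) ^ 2 := Finset.sum_nonneg fun x _ => sq_nonneg _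
  have h6 : 0 ≤ ∑ x, nu x * F x ^ 2 + ∑ x, mu x * F x ^ 2 :=
    add_nonneg (Finset.sum_nonneg fun x _ => mul_nonneg (hnu x) (sq_nonneg _))
      (Finset.sum_nonneg fun x _ => mul_nonneg (hmu x) (sq_nonneg _))
  calc _ ≤ (∑ x, (√(nu x) - √(mu x)) ^ 2) *
        (2 * (∑ x, nu x * F x ^ 2 + ∑ x, mu x * F x ^ 2)) :=
        mul_le_mul_of_nonneg_left h2 h4
    _ ≤ KL nu mu * (2 * (∑ x, nu x * F x ^ 2 + ∑ x, mu x * F x ^ 2)) :=
        mul_le_mul_of_nonneg_right (by linarith) (by linarith)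
    _ = _ := by ring

end hell

/-! ### (S) -/

section sub

variable {ι : Type*} [Fintype ι] [DecidableEq ι]

/-- Bernoulli weight of the set `R` -/
noncomputable def bw (t : ι → ℝ) (R : Finset ι) : ℝ := (∏ i ∈ R, t i) * ∏ i ∈ Rᶜ, (1 - t i)

theorem sum_bw_superset (t : ι → ℝ) (E : Finset ι) :
    ∑ R with E ⊆ R, bw t R = ∏ i ∈ E, t i := by
  have h := Finset.prod_add t (fun i => if i ∈ E then 0 else 1 - t i) univ
  have h1 : ∏ i, (t i + if i ∈ E then 0 else 1 - t i) = ∏ i ∈ E, t i := by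
    rw [← Finset.prod_subset (Finset.subset_univ E)]
    · exact Finset.prod_congr rfl fun i hi => by rw [if_pos hi, add_zero]
    · intro i _ hi
      rw [if_neg hi]
      ring
  rw [h1, Finset.powerset_univ] at h
  rw [h, Finset.sum_filter]
  refine Finset.sum_congr rfl fun R _ => ?_
  by_cases hR : E ⊆ R
  · rw [if_pos hR]
    unfold bw
    congr 1
    rw [← Finset.compl_eq_univ_sdiff]
    refine Finset.prod_congr rfl fun i hi => ?_
    rw [if_neg]
    intro hiE
    exact (Finset.mem_compl.1 hi) (hR hiE)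
  · rw [if_neg hR]
    obtain ⟨i, hiE, hiR⟩ := Finset.not_subset.1 hR
    symm
    refine mul_eq_zero_of_right _ (Finset.prod_eq_zero (i := i) ?_ (if_pos hiE))
    simpa using hiR

theorem sum_bw (t : ι → ℝ) : ∑ R, bw t R = 1 := by
  have h := sum_bw_superset t (∅ : Finset ι)
  simpa using h

theorem bw_nonneg {t : ι → ℝ} (h0 : ∀ i, 0 ≤ t i) (h1 : ∀ i, t i ≤ 1) (R : Finset ι) :
    0 ≤ bw t R :=
  mul_nonneg (Finset.prod_nonneg fun i _ => h0 i)
    (Finset.prod_nonneg fun i _ => sub_nonneg.2 (h1 i))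

/-- (S) with individual rates and no restriction on the sizes -/
theorem sub_gen {t : ι → ℝ} (ht : ∀ i, t i ≠ 0) (T : Finset ι → ℝ) :
    ∑ R, bw t R * (∑ D ∈ R.powerset, T D) ^ 2 =
      ∑ J, (∏ i ∈ J, (1 / t i - 1)) * (∑ D with J ⊆ D, (∏ i ∈ D, t i) * T D) ^ 2 := by
  have hL : ∑ R, bw t R * (∑ D ∈ R.powerset, T D) ^ 2 =
      ∑ D, ∑ D', T D * T D' * ∏ i ∈ D ∪ D', t i := by
    have h1 : ∀ R : Finset ι, bw t R * (∑ D ∈ R.powerset, T D) ^ 2 =
        ∑ D, ∑ D', T D * T D' * (if D ∪ D' ⊆ R then bw t R else 0) := by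
      intro R
      rw [sq, Finset.sum_mul_sum, Finset.mul_sum]
      have h2 : ∀ D : Finset ι, ∑ D', T D * T D' * (if D ∪ D' ⊆ R then bw t R else 0) =
          if D ⊆ R then ∑ D' ∈ R.powerset, bw t R * (T D * T D') else 0 := by
        intro D
        split_ifs with hD
        · rw [← Finset.sum_filter_add_sum_filter_not univ (fun D' => D' ∈ R.powerset)]
          have h3 : ∑ D' with ¬ D' ∈ R.powerset,
              T D * T D' * (if D ∪ D' ⊆ R then bw t R else 0) = 0 := by
            refine Finset.sum_eq_zero fun D' hD' => ?_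
            rw [if_neg, mul_zero]
            intro hc
            exact (Finset.mem_filter.1 hD').2
              (Finset.mem_powerset.2 (Finset.union_subset_right hc))
          rw [h3, add_zero, Finset.filter_mem_eq_inter, Finset.univ_inter]
          refine Finset.sum_congr rfl fun D' hD' => ?_
          rw [if_pos (Finset.union_subset hD (Finset.mem_powerset.1 hD'))]
          ring
        · refine Finset.sum_eq_zero fun D' _ => ?_
          rw [if_neg, mul_zero]
          exact fun hc => hD (Finset.union_subset_left hc)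
      rw [Finset.sum_congr rfl fun D _ => h2 D, ← Finset.sum_filter]
      have h4 : (univ.filter fun D : Finset ι => D ⊆ R) = R.powerset := by
        ext D
        simp
      rw [h4]
      refine Finset.sum_congr rfl fun D _ => ?_
      rw [Finset.mul_sum]
    rw [Finset.sum_congr rfl fun R _ => h1 R, Finset.sum_comm]
    refine Finset.sum_congr rfl fun D _ => ?_
    rw [Finset.sum_comm]
    refine Finset.sum_congr rfl fun D' _ => ?_
    rw [← Finset.mul_sum, ← Finset.sum_filter, sum_bw_superset]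
  have hR : ∑ J, (∏ i ∈ J, (1 / t i - 1)) * (∑ D with J ⊆ D, (∏ i ∈ D, t i) * T D) ^ 2 =
      ∑ D, ∑ D', T D * T D' * ∏ i ∈ D ∪ D', t i := by
    have h1 : ∀ J : Finset ι,
        (∏ i ∈ J, (1 / t i - 1)) * (∑ D with J ⊆ D, (∏ i ∈ D, t i) * T D) ^ 2 =
        ∑ D, ∑ D', ((∏ i ∈ D, t i) * T D) * ((∏ i ∈ D', t i) * T D') *
          (if J ⊆ D ∩ D' then ∏ i ∈ J, (1 / t i - 1) else 0) := by
      intro J
      rw [Finset.sum_filter, sq, Finset.sum_mul_sum, Finset.mul_sum]
      refine Finset.sum_congr rfl fun D _ => ?_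
      rw [Finset.mul_sum]
      refine Finset.sum_congr rfl fun D' _ => ?_
      by_cases hD : J ⊆ D
      · by_cases hD' : J ⊆ D'
        · rw [if_pos hD, if_pos hD', if_pos (Finset.subset_inter hD hD')]
          ring
        · have hc : ¬ J ⊆ D ∩ D' := fun hc => hD' (hc.trans Finset.inter_subset_right)
          rw [if_neg hD', if_neg hc]
          ring
      · have hc : ¬ J ⊆ D ∩ D' := fun hc => hD (hc.trans Finset.inter_subset_left)
        rw [if_neg hD, if_neg hc]
        ring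
    rw [Finset.sum_congr rfl fun J _ => h1 J, Finset.sum_comm]
    refine Finset.sum_congr rfl fun D _ => ?_
    rw [Finset.sum_comm]
    refine Finset.sum_congr rfl fun D' _ => ?_
    rw [← Finset.mul_sum, ← Finset.sum_filter]
    have h2 : (univ.filter fun J : Finset ι => J ⊆ D ∩ D') = (D ∩ D').powerset := by
      ext J
      simp
    rw [h2]
    have h3 := Finset.prod_add (fun i => 1 / t i - 1) (fun _ => (1 : ℝ)) (D ∩ D')
    simp only [Finset.prod_const_one, mul_one, sub_add_cancel] at h3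
    rw [← h3]
    have h4 : (∏ i ∈ D, t i) * (∏ i ∈ D', t i) = (∏ i ∈ D ∪ D', t i) * ∏ i ∈ D ∩ D', t i :=
      (Finset.prod_union_inter).symm
    have h5 : (∏ i ∈ D ∩ D', t i) * ∏ i ∈ D ∩ D', (1 / t i) = 1 := by
      rw [← Finset.prod_mul_distrib]
      exact Finset.prod_eq_one fun i _ => mul_one_div_cancel (ht i)
    linear_combination (T D * T D' * ∏ i ∈ D ∩ D', (1 / t i)) * h4 +
      (T D * T D' * ∏ i ∈ D ∪ D', t i) * h5
  rw [hL, hR]

/-- (S): one rate, all the `D` of size `m` -/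
theorem sub {t : ℝ} (ht : t ≠ 0) {m : ℕ} (T : Finset ι → ℝ) (hT : ∀ D, D.card ≠ m → T D = 0) :
    ∑ R : Finset ι, t ^ R.card * (1 - t) ^ Rᶜ.card * (∑ D ∈ R.powerset, T D) ^ 2 =
      t ^ (2 * m) * ∑ J : Finset ι, (1 / t - 1) ^ J.card * (∑ D with J ⊆ D, T D) ^ 2 := by
  have h := sub_gen (t := fun _ : ι => t) (fun _ => ht) T
  unfold bw at h
  simp only [Finset.prod_const] at h
  rw [h, Finset.mul_sum]
  refine Finset.sum_congr rfl fun J _ => ?_
  have h1 : ∑ D with J ⊆ D, t ^ D.card * T D = t ^ m * ∑ D with J ⊆ D, T D := by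
    rw [Finset.mul_sum]
    refine Finset.sum_congr rfl fun D _ => ?_
    by_cases hD : D.card = m
    · rw [hD]
    · rw [hT D hD, mul_zero, mul_zero]
  rw [h1]
  ring

end sub

end Vale.Agent.P042.H416
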