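import Vale.Agent.P042.H416.HellSub

/-!
# P042, block [B] (helper540 #7109), Step 1: level sets
-/

set_option autoImplicit false

namespace Vale.Agent.P042.H416

open Finset Vale.Agent.P042.H461

variable {X : Type*} [Fintype X]

/-! ### testing with many small sets of coordinates -/

/-- testing a law with marginal relative entropies: `w r` weights, `f r` projections, `F r` test
functions -/
theorem mei_test {ρ : Type*} [Fintype ρ] {Y : ρ → Type*} [∀ r, Fintype (Y r)]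
    [∀ r, DecidableEq (Y r)] {w : ρ → ℝ} (hw : ∀ r, 0 ≤ w r) (f : ∀ r, X → Y r)
    (F : ∀ r, Y r → ℝ) {nu mu : X → ℝ} (hnu : IsLaw nu) (hmu : IsLaw mu) (hac : AC nu mu)
    {K : ℝ} (hK : ∑ r, w r * KL (push (f r) nu) (push (f r) mu) ≤ K) :
    (∑ r, w r * (∑ x, nu x * F r (f r x) - ∑ x, mu x * F r (f r x))) ^ 2 ≤
      2 * K * (∑ r, w r * (∑ x, nu x * F r (f r x) ^ 2 + ∑ x, mu x * F r (f r x) ^ 2)) := by
  classical
  have hk : ∀ r, 0 ≤ KL (push (f r) nu) (push (f r) mu) := fun r =>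
    (hnu.push (f r)).KL_nonneg (hmu.push (f r)) (hac.push hmu.1 (f r))
  have hM : ∀ r, 0 ≤ ∑ x, nu x * F r (f r x) ^ 2 + ∑ x, mu x * F r (f r x) ^ 2 := fun r =>
    add_nonneg (Finset.sum_nonneg fun x _ => mul_nonneg (hnu.1 x) (sq_nonneg _))
      (Finset.sum_nonneg fun x _ => mul_nonneg (hmu.1 x) (sq_nonneg _))
  have h1 : ∀ r, (∑ x, nu x * F r (f r x) - ∑ x, mu x * F r (f r x)) ^ 2 ≤
      2 * KL (push (f r) nu) (push (f r) mu) *
        (∑ x, nu x * F r (f r x) ^ 2 + ∑ x, mu x * F r (f r x) ^ 2) := by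
    intro r
    have h := hell (nu := push (f r) nu) (mu := push (f r) mu) (hnu.push (f r)).1
      (hmu.push (f r)).1 (by rw [(hnu.push (f r)).2, (hmu.push (f r)).2])
      (hac.push hmu.1 (f r)) (F r)
    rw [sum_push (f r) nu (F r), sum_push (f r) mu (F r),
      sum_push (f r) nu (fun y => F r y ^ 2), sum_push (f r) mu (fun y => F r y ^ 2)] at h
    exact h
  have h2 : ∀ r, |w r * (∑ x, nu x * F r (f r x) - ∑ x, mu x * F r (f r x))| ≤
      √(2 * (w r * KL (push (f r) nu) (push (f r) mu))) *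
        √(w r * (∑ x, nu x * F r (f r x) ^ 2 + ∑ x, mu x * F r (f r x) ^ 2)) := by
    intro r
    rw [← Real.sqrt_mul (by have := mul_nonneg (hw r) (hk r); positivity)]
    refine Real.abs_le_sqrt ?_
    have h3 := mul_le_mul_of_nonneg_left (h1 r) (sq_nonneg (w r))
    calc _ = w r ^ 2 * (∑ x, nu x * F r (f r x) - ∑ x, mu x * F r (f r x)) ^ 2 := by ring
      _ ≤ _ := h3
      _ = _ := by ring
  have h3 : |∑ r, w r * (∑ x, nu x * F r (f r x) - ∑ x, mu x * F r (f r x))| ≤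
      ∑ r, √(2 * (w r * KL (push (f r) nu) (push (f r) mu))) *
        √(w r * (∑ x, nu x * F r (f r x) ^ 2 + ∑ x, mu x * F r (f r x) ^ 2)) :=
    (Finset.abs_sum_le_sum_abs _ _).trans (Finset.sum_le_sum fun r _ => h2 r)
  have h4 : (∑ r, w r * (∑ x, nu x * F r (f r x) - ∑ x, mu x * F r (f r x))) ^ 2 ≤
      (∑ r, √(2 * (w r * KL (push (f r) nu) (push (f r) mu))) *
        √(w r * (∑ x, nu x * F r (f r x) ^ 2 + ∑ x, mu x * F r (f r x) ^ 2))) ^ 2 := by
    rw [← sq_abs]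
    exact pow_le_pow_left₀ (abs_nonneg _) h3 2
  refine h4.trans ((Finset.sum_mul_sq_le_sq_mul_sq univ _ _).trans ?_)
  have h5 : ∑ r, √(2 * (w r * KL (push (f r) nu) (push (f r) mu))) ^ 2 =
      2 * ∑ r, w r * KL (push (f r) nu) (push (f r) mu) := by
    rw [Finset.mul_sum]
    exact Finset.sum_congr rfl fun r _ => Real.sq_sqrt (by
      have := mul_nonneg (hw r) (hk r); positivity)
  have h6 : ∑ r, √(w r * (∑ x, nu x * F r (f r x) ^ 2 + ∑ x, mu x * F r (f r x) ^ 2)) ^ 2 =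
      ∑ r, w r * (∑ x, nu x * F r (f r x) ^ 2 + ∑ x, mu x * F r (f r x) ^ 2) :=
    Finset.sum_congr rfl fun r _ => Real.sq_sqrt (mul_nonneg (hw r) (hM r))
  rw [h5, h6]
  refine mul_le_mul_of_nonneg_right (by linarith) (Finset.sum_nonneg fun r _ =>
    mul_nonneg (hw r) (hM r))

/-! ### conditioning on an event -/

/-- `mu` conditioned on the event `E` -/
noncomputable def res [DecidableEq X] (E : Finset X) (mu : X → ℝ) (x : X) : ℝ :=
  if x ∈ E then mu x / ∑ y ∈ E, mu y else 0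

theorem sum_res [DecidableEq X] (E : Finset X) (mu : X → ℝ) (G : X → ℝ) :
    ∑ x, res E mu x * G x = (∑ x ∈ E, mu x * G x) / ∑ y ∈ E, mu y := by
  have h : ∀ x, res E mu x * G x = if x ∈ E then mu x * G x / ∑ y ∈ E, mu y else 0 := by
    intro x
    unfold res
    split_ifs
    · ring
    · ring
  rw [Finset.sum_congr rfl fun x _ => h x, ← Finset.sum_filter, Finset.filter_mem_eq_inter,
    Finset.univ_inter, Finset.sum_div]

theorem isLaw_res [DecidableEq X] {E : Finset X} {mu : X → ℝ} (hmu : ∀ x, 0 ≤ mu x)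
    (hE : 0 < ∑ y ∈ E, mu y) : IsLaw (res E mu) := by
  refine ⟨fun x => ?_, ?_⟩
  · unfold res
    split_ifs
    · exact div_nonneg (hmu x) hE.le
    · exact le_rfl
  · have h := sum_res E mu fun _ => 1
    simp only [mul_one] at h
    rw [h, div_self hE.ne']

omit [Fintype X] in
theorem AC_res [DecidableEq X] (E : Finset X) (mu : X → ℝ) : AC (res E mu) mu := by
  intro x hx
  unfold res
  rw [hx]
  simp

theorem KL_res [DecidableEq X] {E : Finset X} {mu : X → ℝ} (hmu : ∀ x, 0 ≤ mu x)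
    (hE : 0 < ∑ y ∈ E, mu y) : KL (res E mu) mu = -Real.log (∑ y ∈ E, mu y) := by
  have h1 : ∀ x, res E mu x * Real.log (res E mu x / mu x)
      = -(res E mu x * Real.log (∑ y ∈ E, mu y)) := by
    intro x
    unfold res
    split_ifs with hx
    · by_cases h0 : mu x = 0
      · rw [h0]; simp
      · have : mu x / (∑ y ∈ E, mu y) / mu x = (∑ y ∈ E, mu y)⁻¹ := by
          field_simp
        rw [this, Real.log_inv]
        ring
    · simp
  unfold KL
  rw [Finset.sum_congr rfl fun x _ => h1 x, Finset.sum_neg_distrib, ← Finset.sum_mul,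
    (isLaw_res hmu hE).2, one_mul]

/-! ### level sets -/

/-- telescoping of the dyadic levels -/
theorem sum_levels {u B : ℝ} (hu : u ≤ B) (n : ℕ) :
    ∑ j ∈ range n, (if B / 2 ^ (j + 1) < u ∧ u ≤ B / 2 ^ j then (1 : ℝ) else 0) =
      if B / 2 ^ n < u then 1 else 0 := by
  rcases lt_or_ge B 0 with hB | hB
  · -- `u < 0`, all levels are empty
    have h1 : ∀ n : ℕ, (if B / 2 ^ n < u then (1 : ℝ) else 0) =
        if B / 2 ^ n < u then 1 else 0 := fun _ => rfl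
    have hn : ∀ n : ℕ, ¬ B / 2 ^ n < u := by
      intro n hc
      have h2 : B ≤ B / 2 ^ n := by
        rw [le_div_iff₀ (by positivity)]
        have : (1 : ℝ) ≤ 2 ^ n := one_le_pow₀ (by norm_num)
        nlinarith
      linarith
    rw [if_neg (hn n)]
    exact Finset.sum_eq_zero fun j _ => if_neg fun hc => hn _ hc.1
  · induction n with
    | zero => simp [hu]
    | succ n ih =>
      rw [Finset.sum_range_succ, ih]
      have hmono : B / 2 ^ (n + 1) ≤ B / 2 ^ n :=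
        div_le_div_of_nonneg_left hB (by positivity) (pow_le_pow_right₀ (by norm_num) (by omega))
      by_cases h1 : B / 2 ^ n < u
      · rw [if_pos h1, if_neg (fun hc => absurd hc.2 (not_le.2 h1)),
          if_pos (lt_of_le_of_lt hmono h1)]
        ring
      · by_cases h2 : B / 2 ^ (n + 1) < u
        · rw [if_neg h1, if_pos ⟨h2, not_lt.1 h1⟩, if_pos h2]
          ring
        · rw [if_neg h1, if_neg fun hc => h2 hc.1, if_neg h2]
          ring

/-- **Step 1** in abstract form: a test inequality on all events gives a second moment bound -/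
theorem level {p : X → ℝ} (hp : ∀ x, 0 ≤ p x) (hp1 : ∑ x, p x ≤ 1) {Ψ A : X → ℝ}
    (hA : ∀ x, 0 ≤ A x) {a0 B ε K Λ : ℝ} (ha0 : 0 ≤ a0) (hB : ∀ x, |Ψ x| ≤ B) (hε : 0 ≤ ε)
    (hKΛ : 0 ≤ K + Λ)
    (h : ∀ E : Finset X, Real.exp (-Λ) ≤ ∑ x ∈ E, p x → (∑ x ∈ E, p x * Ψ x) ^ 2 ≤
      2 * ε * (K - Real.log (∑ x ∈ E, p x)) * (∑ x ∈ E, p x * A x + (∑ x ∈ E, p x) * a0) *
        ∑ x ∈ E, p x) :
    ∑ x, p x * Ψ x ^ 2 ≤ 3 * Real.exp (-Λ) * B ^ 2 +
      8 * ε * (K + Λ) * (∑ x, p x * A x + a0) := by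
  classical
  -- one level
  have key : ∀ (E : Finset X) (b : ℝ), 0 ≤ b →
      ((∀ x ∈ E, b ≤ Ψ x ∧ Ψ x ≤ 2 * b) ∨ (∀ x ∈ E, b ≤ -Ψ x ∧ -Ψ x ≤ 2 * b)) →
      ∑ x ∈ E, p x * Ψ x ^ 2 ≤ 4 * b ^ 2 * Real.exp (-Λ) +
        8 * ε * (K + Λ) * (∑ x ∈ E, p x * A x + (∑ x ∈ E, p x) * a0) := by
    intro E b hb hE
    have hq0 : 0 ≤ ∑ x ∈ E, p x := Finset.sum_nonneg fun x _ => hp x
    have hA0 : 0 ≤ ∑ x ∈ E, p x * A x + (∑ x ∈ E, p x) * a0 :=
      add_nonneg (Finset.sum_nonneg fun x _ => mul_nonneg (hp x) (hA x)) (mul_nonneg hq0 ha0)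
    have hsq : ∀ x ∈ E, Ψ x ^ 2 ≤ 4 * b ^ 2 := by
      intro x hx
      rcases hE with hE | hE
      · have := hE x hx
        nlinarith
      · have := hE x hx
        nlinarith
    have h1 : ∑ x ∈ E, p x * Ψ x ^ 2 ≤ 4 * b ^ 2 * ∑ x ∈ E, p x := by
      rw [Finset.mul_sum]
      refine Finset.sum_le_sum fun x hx => ?_
      rw [mul_comm]
      exact mul_le_mul_of_nonneg_right (hsq x hx) (hp x)
    rcases lt_or_ge (∑ x ∈ E, p x) (Real.exp (-Λ)) with hq | hq
    · have h2 : 4 * b ^ 2 * ∑ x ∈ E, p x ≤ 4 * b ^ 2 * Real.exp (-Λ) :=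
        mul_le_mul_of_nonneg_left hq.le (by positivity)
      have h3 : 0 ≤ 8 * ε * (K + Λ) * (∑ x ∈ E, p x * A x + (∑ x ∈ E, p x) * a0) := by
        positivity
      linarith
    · have hqpos : 0 < ∑ x ∈ E, p x := lt_of_lt_of_le (Real.exp_pos _) hq
      have h2 := h E hq
      have h3 : (b * ∑ x ∈ E, p x) ^ 2 ≤ (∑ x ∈ E, p x * Ψ x) ^ 2 := by
        rcases hE with hE | hE
        · refine pow_le_pow_left₀ (by positivity) ?_ 2
          rw [Finset.mul_sum]
          refine Finset.sum_le_sum fun x hx => ?_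
          rw [mul_comm]
          exact mul_le_mul_of_nonneg_left (hE x hx).1 (hp x)
        · rw [← neg_sq (∑ x ∈ E, p x * Ψ x)]
          refine pow_le_pow_left₀ (by positivity) ?_ 2
          rw [Finset.mul_sum, ← Finset.sum_neg_distrib]
          refine Finset.sum_le_sum fun x hx => ?_
          have := mul_le_mul_of_nonneg_left (hE x hx).1 (hp x)
          linarith
      have hlog : -Real.log (∑ x ∈ E, p x) ≤ Λ := by
        have := Real.log_le_log (Real.exp_pos _) hq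
        rw [Real.log_exp] at this
        linarith
      have h4 : 2 * ε * (K - Real.log (∑ x ∈ E, p x)) *
          (∑ x ∈ E, p x * A x + (∑ x ∈ E, p x) * a0) * ∑ x ∈ E, p x ≤
          2 * ε * (K + Λ) * (∑ x ∈ E, p x * A x + (∑ x ∈ E, p x) * a0) * ∑ x ∈ E, p x := by
        refine mul_le_mul_of_nonneg_right (mul_le_mul_of_nonneg_right ?_ hA0) hq0
        exact mul_le_mul_of_nonneg_left (by linarith) (by positivity)
      have h5 : b ^ 2 * ∑ x ∈ E, p x ≤
          2 * ε * (K + Λ) * (∑ x ∈ E, p x * A x + (∑ x ∈ E, p x) * a0) := by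
        have h6 := h3.trans (h2.trans h4)
        have h7 : (b ^ 2 * ∑ x ∈ E, p x) * (∑ x ∈ E, p x) ≤
            (2 * ε * (K + Λ) * (∑ x ∈ E, p x * A x + (∑ x ∈ E, p x) * a0)) *
              ∑ x ∈ E, p x := by
          calc _ = (b * ∑ x ∈ E, p x) ^ 2 := by ring
            _ ≤ _ := h6
        exact le_of_mul_le_mul_right h7 hqpos
      have h8 : 0 ≤ 4 * b ^ 2 * Real.exp (-Λ) := by positivity
      nlinarith
  have hB0 : 0 ≤ B ∨ IsEmpty X := by
    rcases isEmpty_or_nonempty X with hX | ⟨⟨x⟩⟩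
    · exact Or.inr hX
    · exact Or.inl ((abs_nonneg _).trans (hB x))
  rcases hB0 with hB0 | hX
  swap
  · have h1 : ∀ f : X → ℝ, ∑ x, f x = 0 := fun f => by simp
    rw [h1, h1]
    positivity
  -- number of levels
  obtain ⟨n, hn⟩ : ∃ n : ℕ, (1 / 4 : ℝ) ^ n < Real.exp (-Λ) / 3 :=
    exists_pow_lt_of_lt_one (by positivity) (by norm_num)
  set Ep : ℕ → Finset X := fun j =>
    univ.filter fun x => B / 2 ^ (j + 1) < Ψ x ∧ Ψ x ≤ B / 2 ^ j with hEp
  set En : ℕ → Finset X := fun j =>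
    univ.filter fun x => B / 2 ^ (j + 1) < -Ψ x ∧ -Ψ x ≤ B / 2 ^ j with hEn
  have hkp : ∀ j, ∑ x ∈ Ep j, p x * Ψ x ^ 2 ≤ 4 * (B / 2 ^ (j + 1)) ^ 2 * Real.exp (-Λ) +
      8 * ε * (K + Λ) * (∑ x ∈ Ep j, p x * A x + (∑ x ∈ Ep j, p x) * a0) := by
    intro j
    refine key (Ep j) (B / 2 ^ (j + 1)) (by positivity) (Or.inl fun x hx => ?_)
    have hx' := (Finset.mem_filter.1 hx).2
    refine ⟨hx'.1.le, hx'.2.trans (le_of_eq ?_)⟩
    rw [pow_succ]
    field_simp
  have hkn : ∀ j, ∑ x ∈ En j, p x * Ψ x ^ 2 ≤ 4 * (B / 2 ^ (j + 1)) ^ 2 * Real.exp (-Λ) +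
      8 * ε * (K + Λ) * (∑ x ∈ En j, p x * A x + (∑ x ∈ En j, p x) * a0) := by
    intro j
    refine key (En j) (B / 2 ^ (j + 1)) (by positivity) (Or.inr fun x hx => ?_)
    have hx' := (Finset.mem_filter.1 hx).2
    refine ⟨hx'.1.le, hx'.2.trans (le_of_eq ?_)⟩
    rw [pow_succ]
    field_simp
  -- rewriting sums over levels
  have hsum : ∀ G : X → ℝ, ∑ j ∈ range n, (∑ x ∈ Ep j, p x * G x + ∑ x ∈ En j, p x * G x) =
      ∑ x, p x * G x * ((if B / 2 ^ n < Ψ x then 1 else 0) +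
        if B / 2 ^ n < -Ψ x then 1 else 0) := by
    intro G
    have h1 : ∀ j, ∑ x ∈ Ep j, p x * G x + ∑ x ∈ En j, p x * G x =
        ∑ x, p x * G x * ((if B / 2 ^ (j + 1) < Ψ x ∧ Ψ x ≤ B / 2 ^ j then (1 : ℝ) else 0) +
          if B / 2 ^ (j + 1) < -Ψ x ∧ -Ψ x ≤ B / 2 ^ j then (1 : ℝ) else 0) := by
      intro j
      rw [hEp, hEn, Finset.sum_filter, Finset.sum_filter, ← Finset.sum_add_distrib]
      refine Finset.sum_congr rfl fun x _ => ?_
      split_ifs <;> ring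
    rw [Finset.sum_congr rfl fun j _ => h1 j, Finset.sum_comm]
    refine Finset.sum_congr rfl fun x _ => ?_
    rw [← Finset.mul_sum, Finset.sum_add_distrib, sum_levels ((le_abs_self _).trans (hB x)),
      sum_levels ((neg_le_abs _).trans (hB x))]
  have hind : ∀ x, (0 : ℝ) ≤ (if B / 2 ^ n < Ψ x then 1 else 0) +
      (if B / 2 ^ n < -Ψ x then 1 else 0) ∧
      ((if B / 2 ^ n < Ψ x then 1 else 0) + if B / 2 ^ n < -Ψ x then 1 else 0) ≤ (1 : ℝ) := by
    intro x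
    have hBn : 0 ≤ B / 2 ^ n := by positivity
    split_ifs with h1 h2
    · exfalso; linarith
    · norm_num
    · norm_num
    · norm_num
  have hle : ∀ G : X → ℝ, (∀ x, 0 ≤ G x) →
      ∑ j ∈ range n, (∑ x ∈ Ep j, p x * G x + ∑ x ∈ En j, p x * G x) ≤ ∑ x, p x * G x := by
    intro G hG
    rw [hsum]
    refine Finset.sum_le_sum fun x _ => ?_
    have h1 := mul_le_mul_of_nonneg_left (hind x).2 (mul_nonneg (hp x) (hG x))
    linarith
  -- the part below the last level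
  have hlow : ∑ x, p x * Ψ x ^ 2 ≤ (B / 2 ^ n) ^ 2 +
      ∑ j ∈ range n, (∑ x ∈ Ep j, p x * Ψ x ^ 2 + ∑ x ∈ En j, p x * Ψ x ^ 2) := by
    rw [hsum (fun x => Ψ x ^ 2)]
    have h1 : ∀ x, p x * Ψ x ^ 2 ≤ p x * (B / 2 ^ n) ^ 2 + p x * Ψ x ^ 2 *
        ((if B / 2 ^ n < Ψ x then 1 else 0) + if B / 2 ^ n < -Ψ x then 1 else 0) := by
      intro x
      have hBn : 0 ≤ B / 2 ^ n := by positivity
      have h0 : 0 ≤ p x * (B / 2 ^ n) ^ 2 := mul_nonneg (hp x) (sq_nonneg _)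
      by_cases h1 : B / 2 ^ n < Ψ x
      · rw [if_pos h1, if_neg (by linarith)]
        linarith
      · by_cases h2 : B / 2 ^ n < -Ψ x
        · rw [if_neg h1, if_pos h2]
          linarith
        · rw [if_neg h1, if_neg h2]
          have h3 : Ψ x ^ 2 ≤ (B / 2 ^ n) ^ 2 := by
            rw [sq_le_sq, abs_of_nonneg hBn]
            exact abs_le.2 ⟨by linarith, by linarith⟩
          have := mul_le_mul_of_nonneg_left h3 (hp x)
          linarith
    have h2 := Finset.sum_le_sum fun x (_ : x ∈ univ) => h1 x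
    rw [Finset.sum_add_distrib, ← Finset.sum_mul] at h2
    have h3 : (∑ x, p x) * (B / 2 ^ n) ^ 2 ≤ 1 * (B / 2 ^ n) ^ 2 :=
      mul_le_mul_of_nonneg_right hp1 (sq_nonneg _)
    linarith
  -- sum over the levels
  have h1 : ∑ j ∈ range n, (∑ x ∈ Ep j, p x * Ψ x ^ 2 + ∑ x ∈ En j, p x * Ψ x ^ 2) ≤
      ∑ j ∈ range n, (2 * B ^ 2 * Real.exp (-Λ) * (1 / 4) ^ j) +
        8 * ε * (K + Λ) * (∑ x, p x * A x + a0) := by
    have h2 : ∑ j ∈ range n, (∑ x ∈ Ep j, p x * Ψ x ^ 2 + ∑ x ∈ En j, p x * Ψ x ^ 2) ≤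
        ∑ j ∈ range n, ((2 * B ^ 2 * Real.exp (-Λ) * (1 / 4) ^ j) +
          8 * ε * (K + Λ) * ((∑ x ∈ Ep j, p x * A x + ∑ x ∈ En j, p x * A x) +
            (∑ x ∈ Ep j, p x * 1 + ∑ x ∈ En j, p x * 1) * a0)) := by
      refine Finset.sum_le_sum fun j _ => ?_
      have ha := hkp j
      have hb := hkn j
      have hc : 4 * (B / 2 ^ (j + 1)) ^ 2 * Real.exp (-Λ) =
          B ^ 2 * Real.exp (-Λ) * (1 / 4) ^ j := by
        have : ((2 : ℝ) ^ (j + 1)) ^ 2 = 4 * 4 ^ j := by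
          rw [← pow_mul, mul_comm (j + 1) 2, pow_mul]
          norm_num
          rw [pow_succ]
          ring
        rw [div_pow, this, one_div, inv_pow]
        field_simp
      rw [hc] at ha hb
      simp only [mul_one]
      linarith
    refine h2.trans ?_
    rw [Finset.sum_add_distrib]
    refine add_le_add le_rfl ?_
    rw [← Finset.mul_sum, Finset.sum_add_distrib, ← Finset.sum_mul]
    have h3 := hle A hA
    have h4 := hle (fun _ => 1) fun _ => zero_le_one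
    have h5 : ∑ x, p x * (1 : ℝ) ≤ 1 := by simpa using hp1
    have h6 : (∑ j ∈ range n, (∑ x ∈ Ep j, p x * 1 + ∑ x ∈ En j, p x * 1)) * a0 ≤ 1 * a0 :=
      mul_le_mul_of_nonneg_right (h4.trans h5) ha0
    refine mul_le_mul_of_nonneg_left ?_ (show 0 ≤ 8 * ε * (K + Λ) by positivity)
    rw [one_mul] at h6
    exact add_le_add h3 h6
  have h2 : ∑ j ∈ range n, (2 * B ^ 2 * Real.exp (-Λ) * (1 / 4 : ℝ) ^ j) ≤
      2 * B ^ 2 * Real.exp (-Λ) * (4 / 3) := by
    rw [← Finset.mul_sum]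
    refine mul_le_mul_of_nonneg_left ?_ (by positivity)
    rw [geom_sum_eq (by norm_num)]
    have : (0 : ℝ) ≤ (1 / 4) ^ n := by positivity
    have h3 : ((1 / 4 : ℝ) ^ n - 1) / (1 / 4 - 1) = (1 - (1 / 4) ^ n) * (4 / 3) := by ring
    rw [h3]
    nlinarith
  have h3 : (B / 2 ^ n) ^ 2 ≤ B ^ 2 * (Real.exp (-Λ) / 3) := by
    have : (B / 2 ^ n) ^ 2 = B ^ 2 * (1 / 4) ^ n := by
      rw [div_pow, ← pow_mul, mul_comm n 2, pow_mul, one_div, inv_pow]
      norm_num
      field_simp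
    rw [this]
    exact mul_le_mul_of_nonneg_left hn.le (sq_nonneg _)
  linarith

/-- the same with the bound of `Ψ` only on the support of `p` -/
theorem level' {p : X → ℝ} (hp : ∀ x, 0 ≤ p x) (hp1 : ∑ x, p x ≤ 1) {Ψ A : X → ℝ}
    (hA : ∀ x, 0 ≤ A x) {a0 B ε K Λ : ℝ} (ha0 : 0 ≤ a0) (hB : ∀ x, p x ≠ 0 → |Ψ x| ≤ B)
    (hB0 : 0 ≤ B) (hε : 0 ≤ ε) (hKΛ : 0 ≤ K + Λ)
    (h : ∀ E : Finset X, Real.exp (-Λ) ≤ ∑ x ∈ E, p x → (∑ x ∈ E, p x * Ψ x) ^ 2 ≤
      2 * ε * (K - Real.log (∑ x ∈ E, p x)) * (∑ x ∈ E, p x * A x + (∑ x ∈ E, p x) * a0) *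
        ∑ x ∈ E, p x) :
    ∑ x, p x * Ψ x ^ 2 ≤ 3 * Real.exp (-Λ) * B ^ 2 +
      8 * ε * (K + Λ) * (∑ x, p x * A x + a0) := by
  classical
  have h1 : ∀ x, p x * Ψ x = p x * (if p x = 0 then 0 else Ψ x) := by
    intro x
    split_ifs with h0
    · rw [h0]; ring
    · rfl
  have h2 : ∀ x, p x * Ψ x ^ 2 = p x * (if p x = 0 then 0 else Ψ x) ^ 2 := by
    intro x
    split_ifs with h0
    · rw [h0]; ring
    · rfl
  rw [Finset.sum_congr rfl fun x _ => h2 x]
  refine level hp hp1 hA ha0 (fun x => ?_) hε hKΛ fun E hE => ?_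
  · split_ifs with h0
    · simpa using hB0
    · exact hB x h0
  · rw [← Finset.sum_congr rfl fun x _ => h1 x]
    exact h E hE

/-- **Step 1**, concrete form.  `mu` a law, `E0` an event (the pins) of mass `m0`, `w r` weights
and `f r` projections with the marginal entropy inequality (only needed for `mu` conditioned on
events `E ⊆ E0` with `exp (-Λ) m0 ≤ mu E`, and with an additive error `ε κ`), `F r` test functions
with `∑_r w r E_mu F r = 0`. -/
theorem level_mei [DecidableEq X] {ρ : Type*} [Fintype ρ] {Y : ρ → Type*} [∀ r, Fintype (Y r)]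
    [∀ r, DecidableEq (Y r)] {w : ρ → ℝ} (hw : ∀ r, 0 ≤ w r) (f : ∀ r, X → Y r)
    (F : ∀ r, Y r → ℝ) {mu : X → ℝ} (hmu : IsLaw mu) {ε κ : ℝ} (hε : 0 ≤ ε) (hκ : 0 ≤ κ)
    (hc : ∑ r, w r * ∑ x, mu x * F r (f r x) = 0)
    {Ψ : X → ℝ} (hΨ : ∀ x, Ψ x = ∑ r, w r * F r (f r x)) {B : ℝ}
    (hB : ∀ x, mu x ≠ 0 → |Ψ x| ≤ B) (E0 : Finset X) (hE0 : 0 < ∑ x ∈ E0, mu x) {Λ : ℝ} (hΛ : 0 ≤ Λ)
    (hmei : ∀ E ⊆ E0, Real.exp (-Λ) * (∑ x ∈ E0, mu x) ≤ ∑ x ∈ E, mu x →
      ∑ r, w r * KL (push (f r) (res E mu)) (push (f r) mu) ≤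
        ε * (κ - Real.log (∑ x ∈ E, mu x))) :
    ∑ x ∈ E0, mu x * Ψ x ^ 2 ≤ (∑ x ∈ E0, mu x) * (3 * Real.exp (-Λ) * B ^ 2) +
      8 * ε * (Λ + κ - Real.log (∑ x ∈ E0, mu x)) *
        (∑ x ∈ E0, mu x * (∑ r, w r * F r (f r x) ^ 2) +
          (∑ x ∈ E0, mu x) * ∑ x, mu x * (∑ r, w r * F r (f r x) ^ 2)) := by
  set m0 := ∑ x ∈ E0, mu x with hm0
  have hm1 : m0 ≤ 1 := by
    rw [← hmu.2]
    exact Finset.sum_le_univ_sum_of_nonneg hmu.1
  have hlog : Real.log m0 ≤ 0 := Real.log_nonpos hE0.le hm1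
  set A : X → ℝ := fun x => ∑ r, w r * F r (f r x) ^ 2 with hAdef
  have hA : ∀ x, 0 ≤ A x := fun x =>
    Finset.sum_nonneg fun r _ => mul_nonneg (hw r) (sq_nonneg _)
  have hlaw := isLaw_res hmu.1 hE0
  have hres : ∀ (E : Finset X) (G : X → ℝ), ∑ x ∈ E, res E0 mu x * G x =
      (∑ x ∈ E ∩ E0, mu x * G x) / m0 := by
    intro E G
    have h : ∀ x, res E0 mu x * G x = if x ∈ E0 then mu x * G x / m0 else 0 := by
      intro x
      unfold res
      rw [← hm0]
      split_ifs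
      · ring
      · ring
    rw [Finset.sum_congr rfl fun x _ => h x, ← Finset.sum_filter, Finset.filter_mem_eq_inter,
      Finset.sum_div]
  have hB0 : 0 ≤ B := by
    obtain ⟨x, _, hx⟩ := Finset.exists_ne_zero_of_sum_ne_zero hE0.ne'
    exact (abs_nonneg _).trans (hB x hx)
  have hmain := level' (p := res E0 mu) hlaw.1 hlaw.2.le (Ψ := Ψ) (A := A) hA
    (a0 := ∑ x, mu x * A x) (B := B) (ε := ε) (K := κ - Real.log m0) (Λ := Λ)
    (Finset.sum_nonneg fun x _ => mul_nonneg (hmu.1 x) (hA x))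
    (fun x hx => hB x fun h0 => hx (AC_res E0 mu x h0)) hB0 hε (by linarith) (by
      intro E hE
      have hE' : ∑ x ∈ E, res E0 mu x = (∑ x ∈ E ∩ E0, mu x) / m0 := by
        have := hres E fun _ => 1
        simpa using this
      rw [hE'] at hE ⊢
      set q := ∑ x ∈ E ∩ E0, mu x with hq
      have hqlow : Real.exp (-Λ) * m0 ≤ q := (le_div_iff₀ hE0).1 hE
      have hqpos : 0 < q := lt_of_lt_of_le (mul_pos (Real.exp_pos _) hE0) hqlow
      have hqm : q ≤ m0 := Finset.sum_le_sum_of_subset_of_nonneg Finset.inter_subset_right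
        fun x _ _ => hmu.1 x
      -- the test law
      have hL := isLaw_res hmu.1 hqpos
      have htest := mei_test hw f F hL hmu (AC_res _ mu)
        (hmei (E ∩ E0) Finset.inter_subset_right hqlow)
      have h1 : ∑ r, w r * (∑ x, res (E ∩ E0) mu x * F r (f r x) - ∑ x, mu x * F r (f r x)) =
          (∑ x ∈ E ∩ E0, mu x * Ψ x) / q := by
        have h2 : ∑ r, w r * (∑ x, res (E ∩ E0) mu x * F r (f r x) -
            ∑ x, mu x * F r (f r x)) =
            ∑ r, w r * ∑ x, res (E ∩ E0) mu x * F r (f r x) -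
              ∑ r, w r * ∑ x, mu x * F r (f r x) := by
          rw [← Finset.sum_sub_distrib]
          exact Finset.sum_congr rfl fun r _ => by ring
        rw [h2, hc, sub_zero, hq, ← sum_res]
        have h3 : ∀ x, res (E ∩ E0) mu x * Ψ x =
            ∑ r, w r * (res (E ∩ E0) mu x * F r (f r x)) := by
          intro x
          rw [hΨ, Finset.mul_sum]
          exact Finset.sum_congr rfl fun r _ => by ring
        rw [Finset.sum_congr rfl fun x _ => h3 x, Finset.sum_comm]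
        exact Finset.sum_congr rfl fun r _ => by rw [Finset.mul_sum]
      have h4 : ∑ r, w r * (∑ x, res (E ∩ E0) mu x * F r (f r x) ^ 2 +
          ∑ x, mu x * F r (f r x) ^ 2) = (∑ x ∈ E ∩ E0, mu x * A x) / q + ∑ x, mu x * A x := by
        have h5 : ∀ (v : X → ℝ), ∑ r, w r * ∑ x, v x * F r (f r x) ^ 2 = ∑ x, v x * A x := by
          intro v
          have h6 : ∀ x, v x * A x = ∑ r, w r * (v x * F r (f r x) ^ 2) := by
            intro x
            rw [hAdef, Finset.mul_sum]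
            exact Finset.sum_congr rfl fun r _ => by ring
          rw [Finset.sum_congr rfl fun x _ => h6 x, Finset.sum_comm]
          exact Finset.sum_congr rfl fun r _ => by rw [Finset.mul_sum]
        have h7 : ∑ r, w r * (∑ x, res (E ∩ E0) mu x * F r (f r x) ^ 2 +
            ∑ x, mu x * F r (f r x) ^ 2) =
            ∑ r, w r * ∑ x, res (E ∩ E0) mu x * F r (f r x) ^ 2 +
              ∑ r, w r * ∑ x, mu x * F r (f r x) ^ 2 := by
          rw [← Finset.sum_add_distrib]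
          exact Finset.sum_congr rfl fun r _ => by ring
        rw [h7, h5, h5, hq, ← sum_res]
      rw [h1, h4, ← hq] at htest
      rw [hres E Ψ, hres E A, Real.log_div hqpos.ne' hE0.ne']
      have h8 : ((∑ x ∈ E ∩ E0, mu x * Ψ x) / m0) ^ 2 =
          ((∑ x ∈ E ∩ E0, mu x * Ψ x) / q) ^ 2 * (q / m0) ^ 2 := by
        field_simp
      rw [h8]
      refine (mul_le_mul_of_nonneg_right htest (sq_nonneg _)).trans (le_of_eq ?_)
      field_simp
      ring)
  have h1 := hres univ fun x => Ψ x ^ 2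
  have h2 := hres univ A
  rw [Finset.univ_inter] at h1 h2
  rw [h1, h2] at hmain
  have h3 := mul_le_mul_of_nonneg_left hmain hE0.le
  rw [mul_div_cancel₀ _ hE0.ne'] at h3
  refine h3.trans (le_of_eq ?_)
  field_simp
  ring

end Vale.Agent.P042.H416
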